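import Mathlib

namespace Vale.Agent.Results.P033.BlockLength

open Finset

variable {n : ℕ} [NeZero n]

/-- window sums -/
def W (h : ZMod n → ℤ) (m : ℕ) (j : ZMod n) : ℤ := ∑ i ∈ range m, h (j + i)

lemma autocorr (h : ZMod n → ℤ)
    (hH : (Matrix.of fun i j : ZMod n => h (j - i)) * (Matrix.of fun i j : ZMod n => h (j - i)).transpose
      = (n : ℤ) • (1 : Matrix (ZMod n) (ZMod n) ℤ)) (t : ZMod n) (ht : t ≠ 0) :
    ∑ j, h j * h (j + t) = 0 := by
  have h1 := congrFun (congrFun hH 0) (-t)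
  have h2 : (0 : ZMod n) ≠ -t := by
    intro h3
    apply ht
    have := neg_eq_zero.mp h3.symm
    exact this
  simpa [Matrix.mul_apply, Matrix.transpose_apply, Matrix.of_apply, Matrix.smul_apply,
    Matrix.one_apply, h2] using h1

lemma auto0 (h : ZMod n → ℤ) (hpm : ∀ j, h j = 1 ∨ h j = -1) :
    ∑ j, h j * h (j + 0) = n := by
  have : ∀ j, h j * h (j + 0) = 1 := by
    intro j
    rcases hpm j with h1 | h1 <;> simp [h1]
  rw [Finset.sum_congr rfl (fun j _ => this j)]
  simp [ZMod.card]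

lemma window_sq (h : ZMod n → ℤ) (hpm : ∀ j, h j = 1 ∨ h j = -1)
    (hP : ∀ t : ZMod n, t ≠ 0 → ∑ j, h j * h (j + t) = 0) (m : ℕ) (hm : m ≤ n) :
    ∑ j, (W h m j) ^ 2 = m * n := by
  have e1 : ∀ j, (W h m j) ^ 2 = ∑ i ∈ range m, ∑ i' ∈ range m, h (j + i) * h (j + i') := by
    intro j
    rw [sq, W, Finset.sum_mul_sum]
  simp_rw [e1]
  rw [Finset.sum_comm]
  have e2 : ∀ i ∈ range m, ∑ j, ∑ i' ∈ range m, h (j + i) * h (j + i') = n := by
    intro i hi
    rw [Finset.sum_comm]
    have e3 : ∀ i' ∈ range m, ∑ j, h (j + i) * h (j + i') = if i' = i then (n : ℤ) else 0 := by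
      intro i' hi'
      have e4 : ∑ j, h (j + i) * h (j + i') = ∑ j, h j * h (j + ((i' : ZMod n) - i)) := by
        apply Fintype.sum_equiv (Equiv.addRight (i : ZMod n))
        intro j
        simp only [Equiv.coe_addRight]
        congr 2
        ring
      rw [e4]
      split_ifs with hc
      · subst hc
        rw [sub_self]
        exact auto0 h hpm
      · apply hP
        intro h0
        apply hc
        have h5 : (i' : ZMod n) = (i : ZMod n) := sub_eq_zero.mp h0
        rw [ZMod.natCast_eq_natCast_iff'] at h5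
        rw [Nat.mod_eq_of_lt (lt_of_lt_of_le (mem_range.mp hi') hm),
          Nat.mod_eq_of_lt (lt_of_lt_of_le (mem_range.mp hi) hm)] at h5
        exact h5
    rw [Finset.sum_congr rfl e3]
    simp [hi]
  rw [Finset.sum_congr rfl e2]
  simp

omit [NeZero n] in
lemma W_succ (h : ZMod n → ℤ) (m : ℕ) (j : ZMod n) :
    W h m (j + 1) = W h m j + h (j + m) - h j := by
  have h1 : ∑ i ∈ range (m + 1), h (j + (i : ℕ)) = W h m j + h (j + m) := by
    rw [Finset.sum_range_succ, W]
  have h2 : ∑ i ∈ range (m + 1), h (j + (i : ℕ)) = W h m (j + 1) + h j := by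
    rw [Finset.sum_range_succ', W]
    congr 1
    · apply Finset.sum_congr rfl
      intro i _
      congr 1
      push_cast
      ring
    · simp
  linarith

lemma sq_sum_range (k : ℕ) : 6 * ∑ t ∈ range k, (t : ℤ) ^ 2 = ((k : ℤ) - 1) * k * (2 * k - 1) := by
  induction k with
  | zero => simp
  | succ k ih =>
    rw [Finset.sum_range_succ, mul_add, ih]
    push_cast
    ring

lemma sq_sum_reflect (k : ℕ) :
    ∑ t ∈ range k, ((k : ℤ) - (t + 1)) ^ 2 = ∑ t ∈ range k, (t : ℤ) ^ 2 := by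
  rw [← Finset.sum_range_reflect (fun t => (t : ℤ) ^ 2) k]
  apply Finset.sum_congr rfl
  intro t ht
  have h1 : t + 1 ≤ k := mem_range.mp ht
  have h2 : ((k - 1 - t : ℕ) : ℤ) = (k : ℤ) - (t + 1) := by
    have : k - 1 - t = k - (t + 1) := by omega
    rw [this, Nat.cast_sub h1]
    push_cast
    ring
  rw [h2]

lemma main_ineq (h : ZMod n → ℤ) (hpm : ∀ j, h j = 1 ∨ h j = -1)
    (hP : ∀ t : ZMod n, t ≠ 0 → ∑ j, h j * h (j + t) = 0)
    (a : ZMod n) (k q : ℕ) (hk : 1 ≤ k) (hn : 2 * k + q + 1 ≤ n)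
    (hrun : ∀ p : ℕ, p < 2 * k + q → h (a + p) = h a) :
    4 * (k : ℤ) ^ 2 + 6 * q * k + 2 ≤ 3 * n := by
  set e : ℤ := h a with he
  have he2 : e * e = 1 := by
    rcases hpm a with h1 | h1 <;> simp [he, h1]
  have hb : ∀ j, -1 ≤ e * h j ∧ e * h j ≤ 1 := by
    intro j
    rcases hpm a with h1 | h1 <;> rcases hpm j with h2 | h2 <;> simp [he, h1, h2]
  set T : ZMod n → ℤ := fun j => e * W h (2 * k) j with hT
  have hTsq : ∀ j, (W h (2 * k) j) ^ 2 = (T j) ^ 2 := by
    intro j
    simp only [hT]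
    have : (e * W h (2 * k) j) ^ 2 = (e * e) * (W h (2 * k) j) ^ 2 := by ring
    rw [this, he2, one_mul]
  have hstep : ∀ j, T (j + 1) = T j + e * h (j + (2 * k : ℕ)) - e * h j := by
    intro j
    simp only [hT]
    rw [W_succ]
    ring
  have hfull : ∀ t : ℕ, t ≤ q → T (a + t) = 2 * k := by
    intro t ht
    simp only [hT, W]
    have : ∀ i ∈ range (2 * k), h (a + t + i) = e := by
      intro i hi
      have h1 : a + (t : ZMod n) + (i : ZMod n) = a + ((t + i : ℕ) : ZMod n) := by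
        push_cast
        ring
      rw [h1]
      apply hrun
      have := mem_range.mp hi
      omega
    rw [Finset.sum_congr rfl this]
    simp only [Finset.sum_const, card_range, nsmul_eq_mul]
    push_cast
    linear_combination (2 * (k : ℤ)) * he2
  have hleft : ∀ t : ℕ, 2 * (k : ℤ) - 2 * t ≤ T (a - t) := by
    intro t
    induction t with
    | zero =>
      have := hfull 0 (Nat.zero_le _)
      simp at this
      simp [this]
    | succ t ih =>
      have h1 := hstep (a - ((t + 1 : ℕ) : ZMod n))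
      have h2 : a - ((t + 1 : ℕ) : ZMod n) + 1 = a - t := by
        push_cast
        ring
      rw [h2] at h1
      have h3 := hb (a - ((t + 1 : ℕ) : ZMod n) + (2 * k : ℕ))
      have h4 := hb (a - ((t + 1 : ℕ) : ZMod n))
      push_cast at *
      linarith [h3.1, h3.2, h4.1, h4.2]
  have hright : ∀ t : ℕ, 2 * (k : ℤ) - 2 * t ≤ T (a + q + t) := by
    intro t
    induction t with
    | zero =>
      have := hfull q le_rfl
      simp [this]
    | succ t ih =>
      have h1 := hstep (a + q + t)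
      have h2 : a + (q : ZMod n) + (t : ZMod n) + 1 = a + q + ((t + 1 : ℕ) : ZMod n) := by
        push_cast
        ring
      rw [h2] at h1
      have h3 := hb (a + q + t + (2 * k : ℕ))
      have h4 := hb (a + q + t)
      push_cast at *
      linarith [h3.1, h3.2, h4.1, h4.2]
  -- total
  have htot := window_sq h hpm hP (2 * k) (by omega)
  set b : ZMod n := a - k with hbdef
  have hinj : Set.InjOn (fun s : ℕ => b + (s : ZMod n)) (range (k + (q + 1) + k) : Set ℕ) := by
    intro s hs s' hs' hss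
    have h5 : (s : ZMod n) = (s' : ZMod n) := add_left_cancel hss
    rw [ZMod.natCast_eq_natCast_iff'] at h5
    have h6 : s < n := by
      have := mem_range.mp (Finset.mem_coe.mp hs)
      omega
    have h7 : s' < n := by
      have := mem_range.mp (Finset.mem_coe.mp hs')
      omega
    rwa [Nat.mod_eq_of_lt h6, Nat.mod_eq_of_lt h7] at h5
  have hsub : ∑ s ∈ range (k + (q + 1) + k), (T (b + s)) ^ 2 ≤ ∑ j, (W h (2 * k) j) ^ 2 := by
    rw [← Finset.sum_image (f := fun j => (T j) ^ 2) hinj]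
    simp_rw [hTsq]
    apply Finset.sum_le_univ_sum_of_nonneg
    intro j
    positivity
  rw [Finset.sum_range_add, Finset.sum_range_add] at hsub
  have hA : ∑ s ∈ range k, 4 * (s : ℤ) ^ 2 ≤ ∑ s ∈ range k, (T (b + s)) ^ 2 := by
    apply Finset.sum_le_sum
    intro s hs
    have hs' : s ≤ k := le_of_lt (mem_range.mp hs)
    have h1 := hleft (k - s)
    have h2 : a - ((k - s : ℕ) : ZMod n) = b + s := by
      rw [Nat.cast_sub hs', hbdef]
      ring
    rw [h2, Nat.cast_sub hs'] at h1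
    have h3 : 2 * (s : ℤ) ≤ T (b + s) := by linarith
    have h4 : (0 : ℤ) ≤ s := Int.natCast_nonneg s
    nlinarith
  have hB : ∑ s ∈ range (q + 1), 4 * (k : ℤ) ^ 2 ≤ ∑ s ∈ range (q + 1), (T (b + ((k + s : ℕ) : ZMod n))) ^ 2 := by
    apply Finset.sum_le_sum
    intro s hs
    have h1 := hfull s (Nat.lt_succ_iff.mp (mem_range.mp hs))
    have h2 : b + ((k + s : ℕ) : ZMod n) = a + s := by
      rw [hbdef]
      push_cast
      ring
    rw [h2, h1]
    apply le_of_eq
    ring
  have hC : ∑ s ∈ range k, 4 * ((k : ℤ) - (s + 1)) ^ 2 ≤ ∑ s ∈ range k, (T (b + ((k + (q + 1) + s : ℕ) : ZMod n))) ^ 2 := by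
    apply Finset.sum_le_sum
    intro s hs
    have hs' : s + 1 ≤ k := mem_range.mp hs
    have h1 := hright (s + 1)
    have h2 : b + ((k + (q + 1) + s : ℕ) : ZMod n) = a + q + ((s + 1 : ℕ) : ZMod n) := by
      rw [hbdef]
      push_cast
      ring
    rw [h2]
    push_cast at h1 ⊢
    have h4 : (0 : ℤ) ≤ (k : ℤ) - (s + 1) := by
      have : ((s + 1 : ℕ) : ℤ) ≤ k := by exact_mod_cast hs'
      push_cast at this
      linarith
    nlinarith
  rw [← Finset.mul_sum] at hA hC
  rw [sq_sum_reflect] at hC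
  have hS := sq_sum_range k
  simp only [Finset.sum_const, card_range, nsmul_eq_mul] at hB
  rw [htot] at hsub
  push_cast at hsub hB hC
  have hk' : (1 : ℤ) ≤ k := by exact_mod_cast hk
  -- 2*k*n >= 8 S + 4 (q+1) k^2,  6 S = (k-1) k (2k-1)
  have hfin : (2 * (k : ℤ)) * (4 * (k : ℤ) ^ 2 + 6 * q * k + 2) ≤ (2 * (k : ℤ)) * (3 * n) := by
    nlinarith
  exact le_of_mul_le_mul_left hfin (by linarith)

lemma core (h : ZMod n → ℤ) (hpm : ∀ j, h j = 1 ∨ h j = -1)
    (hP : ∀ t : ZMod n, t ≠ 0 → ∑ j, h j * h (j + t) = 0)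
    (a : ZMod n) (L : ℕ) (hL : L ≤ n) (hrun : ∀ p : ℕ, p < L → h (a + p) = h a) :
    3 * L ^ 2 ≤ 8 * n := by
  have hn1 : 1 ≤ n := Nat.one_le_iff_ne_zero.mpr (NeZero.ne n)
  by_cases hL1 : L ≤ 1
  · interval_cases L <;> omega
  rw [not_le] at hL1
  -- the case L = n is impossible
  have hLn : L + 1 ≤ n := by
    by_contra hc
    have hLeq : L = n := by omega
    subst hLeq
    have hconst : ∀ j, h j = h a := by
      intro j
      have h1 := hrun (j - a).val (ZMod.val_lt _)
      rw [ZMod.natCast_zmod_val] at h1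
      simpa using h1
    have : Fact (1 < L) := ⟨hL1⟩
    have h2 := hP 1 one_ne_zero
    have h3 : ∀ j, h j * h (j + 1) = 1 := by
      intro j
      rw [hconst j, hconst (j + 1)]
      rcases hpm a with h1 | h1 <;> simp [h1]
    rw [Finset.sum_congr rfl (fun j _ => h3 j)] at h2
    simp [ZMod.card] at h2
    omega
  obtain ⟨k, hk⟩ : ∃ k, k = (3 * L + 4) / 8 := ⟨_, rfl⟩
  have hk1 : 8 * k ≤ 3 * L + 4 := by omega
  have hk2 : 3 * L + 4 < 8 * k + 8 := by omega
  obtain ⟨q, hq⟩ : ∃ q, L = 2 * k + q := ⟨L - 2 * k, by omega⟩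
  have hmain := main_ineq h hpm hP a k q (by omega) (by omega) (by rw [← hq]; exact hrun)
  have hq' : (L : ℤ) = 2 * k + q := by exact_mod_cast hq
  have hk1' : 8 * (k : ℤ) ≤ 3 * L + 4 := by exact_mod_cast hk1
  have hk2' : 3 * (L : ℤ) + 4 < 8 * k + 8 := by exact_mod_cast hk2
  have hgoal : 3 * (L : ℤ) ^ 2 ≤ 8 * n := by
    have hqq : (q : ℤ) = L - 2 * k := by linarith
    rw [hqq] at hmain
    nlinarith [mul_nonneg (sub_nonneg.mpr hk1') (sub_nonneg.mpr (le_of_lt hk2'))]
  exact_mod_cast hgoal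

theorem result (n : ℕ) [NeZero n] (h : ZMod n → ℤ) (hpm : ∀ j, h j = 1 ∨ h j = -1)
    (hH : (Matrix.of fun i j : ZMod n => h (j - i)) * (Matrix.of fun i j : ZMod n => h (j - i)).transpose
      = (n : ℤ) • (1 : Matrix (ZMod n) (ZMod n) ℤ))
    (a : ZMod n) (d : (ZMod n)ˣ) (L : ℕ) (hL : L ≤ n)
    (hrun : ∀ p : ℕ, p < L → h (a + p * d) = h a) :
    3 * L ^ 2 ≤ 8 * n := by
  have hP := autocorr h hH
  have hP' : ∀ t : ZMod n, t ≠ 0 →
      ∑ j, (fun x => h ((d : ZMod n) * x)) j * (fun x => h ((d : ZMod n) * x)) (j + t) = 0 := by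
    intro t ht
    have h1 : (d : ZMod n) * t ≠ 0 := by
      intro h0
      exact ht ((Units.mul_right_eq_zero d).mp h0)
    rw [← hP _ h1]
    apply Fintype.sum_equiv (Units.mulLeft d)
    intro j
    simp [mul_add]
  apply core (fun x => h ((d : ZMod n) * x)) (fun j => hpm _) hP' (((d⁻¹ : (ZMod n)ˣ) : ZMod n) * a) L hL
  intro p hp
  have h2 : (d : ZMod n) * (((d⁻¹ : (ZMod n)ˣ) : ZMod n) * a) = a := by
    rw [← mul_assoc, Units.mul_inv, one_mul]
  have h3 : (d : ZMod n) * (((d⁻¹ : (ZMod n)ˣ) : ZMod n) * a + p) = a + p * d := by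
    rw [mul_add, h2]
    ring
  simp only [h2, h3]
  exact hrun p hp

end Vale.Agent.Results.P033.BlockLength
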